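import Mathlib

/-! Bin packing: the optimum and the configuration linear program. -/

namespace Vale.Agent.P302

open Finset

/-- the least number of unit bins into which the items can be partitioned -/
noncomputable def OPT {n : ℕ} (a : Fin n → ℚ) : ℕ :=
  sInf {k | ∃ f : Fin n → Fin k, ∀ b, ∑ i with f i = b, a i ≤ 1}

/-- a configuration: multiplicities of sizes of the instance, of total size at most one -/
def IsConf {n : ℕ} (a : Fin n → ℚ) (c : ℚ →₀ ℕ) : Prop :=
  (∀ σ ∈ c.support, ∃ i, a i = σ) ∧ (c.sum fun σ m => σ * m) ≤ 1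

/-- the value of the Gilmore-Gomory configuration linear program -/
noncomputable def LP {n : ℕ} (a : Fin n → ℚ) : ℝ :=
  sInf {t | ∃ z : (ℚ →₀ ℕ) →₀ ℝ, (∀ c, 0 ≤ z c) ∧ (∀ c ∈ z.support, IsConf a c) ∧
    (∀ σ, ((univ.filter fun i => a i = σ).card : ℝ) ≤ z.sum fun c w => (c σ : ℝ) * w) ∧
    t = z.sum fun _ w => w}

end Vale.Agent.P302
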