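import Mathlib

/-! The tree of keys: positions and scales. -/

namespace Vale.Agent.P302

open Finset

variable (d A : ℕ)

def P : ℕ → ℕ
  | 0 => 1
  | j + 1 => P j * (d * A * P j)

def M (j : ℕ) : ℕ := d * A * P d A j
def R (j l : ℕ) : ℕ := ∏ i ∈ Ico j l, M d A i
def rk (j n : ℕ) : ℕ := (d + 1) * ((n + 1) * R d A j d) + (d - j)
def Y (j n : ℕ) : ℕ := (4 * P d A d) ^ rk d A j n

def x : ℕ → ℕ → ℕ
  | 0, _ => 0
  | j + 1, n => x j (n / M d A j) + (4 * (n % M d A j) + 1) * Y d A j (n / M d A j)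

def s : ℕ → ℕ → ℕ
  | 0, _ => 0
  | j + 1, n => x d A j (n / M d A j) + 4 * (n % M d A j) * Y d A j (n / M d A j)

def Yp : ℕ → ℕ → ℕ
  | 0, _ => 0
  | j + 1, n => Y d A j (n / M d A j)

variable {d A}

lemma P_succ (j : ℕ) : P d A (j + 1) = P d A j * M d A j := rfl

lemma R_self (j : ℕ) : R d A j j = 1 := by simp [R]

lemma R_succ {j l : ℕ} (h : j ≤ l) : R d A j (l + 1) = R d A j l * M d A l :=
  prod_Ico_succ_top h _

lemma R_one (j : ℕ) : R d A j (j + 1) = M d A j := by rw [R_succ le_rfl, R_self, one_mul]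

lemma R_mul {j l m : ℕ} (h : j ≤ l) (h' : l ≤ m) : R d A j l * R d A l m = R d A j m :=
  prod_Ico_consecutive _ h h'

lemma P_mul {j l : ℕ} (h : j ≤ l) : P d A j * R d A j l = P d A l := by
  induction l, h using Nat.le_induction with
  | base => rw [R_self, mul_one]
  | succ l h ih => rw [R_succ h, ← mul_assoc, ih, P_succ]

lemma anc_succ {j l : ℕ} (h : j ≤ l) (n : ℕ) :
    n / R d A j (l + 1) = n / M d A l / R d A j l := by
  rw [R_succ h, Nat.div_div_eq_div_mul, mul_comm]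

lemma anc_anc {j l m : ℕ} (h : j ≤ l) (h' : l ≤ m) (n : ℕ) :
    n / R d A l m / R d A j l = n / R d A j m := by
  rw [Nat.div_div_eq_div_mul, mul_comm, R_mul h h']

lemma x_eq (j n : ℕ) : x d A j n = s d A j n + Yp d A j n := by
  cases j with
  | zero => rfl
  | succ j => simp only [x, s, Yp]; ring

section
variable (hd : 0 < d) (hA : 0 < A)
include hd hA

lemma P_pos (j : ℕ) : 0 < P d A j := by
  induction j with
  | zero => exact one_pos
  | succ j ih => exact Nat.mul_pos ih (Nat.mul_pos (Nat.mul_pos hd hA) ih)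

lemma M_pos (j : ℕ) : 0 < M d A j := Nat.mul_pos (Nat.mul_pos hd hA) (P_pos hd hA j)

lemma R_pos (j l : ℕ) : 0 < R d A j l := prod_pos fun i _ => M_pos hd hA i

lemma P_mono {j l : ℕ} (h : j ≤ l) : P d A j ≤ P d A l := by
  rw [← P_mul h]; exact Nat.le_mul_of_pos_right _ (R_pos hd hA j l)

lemma M_le {j : ℕ} (h : j < d) : M d A j ≤ P d A d :=
  (Nat.le_mul_of_pos_left _ (P_pos hd hA j)).trans (P_mono hd hA (j := j + 1) h)

lemma anc_lt {j l n : ℕ} (h : j ≤ l) (hn : n < P d A l) : n / R d A j l < P d A j := by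
  rw [Nat.div_lt_iff_lt_mul (R_pos hd hA j l), P_mul h]; exact hn

lemma Y_pos (j n : ℕ) : 0 < Y d A j n := Nat.pow_pos (by have := P_pos hd hA d; omega)

lemma Yp_pos {l : ℕ} (hl : 1 ≤ l) (n : ℕ) : 0 < Yp d A l n := by
  obtain ⟨l, rfl⟩ := Nat.exists_eq_add_of_le' hl
  exact Y_pos hd hA _ _

lemma rk_aux {j l : ℕ} (h : j ≤ l) (hl : l ≤ d) (n : ℕ) :
    (n + 1) * R d A l d ≤ (n / R d A j l + 1) * R d A j d := by
  rw [← R_mul h hl, ← mul_assoc]
  refine Nat.mul_le_mul_right _ ?_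
  rw [mul_comm]
  exact Nat.lt_mul_div_succ n (R_pos hd hA j l)

lemma rk_le {j l : ℕ} (h : j ≤ l) (hl : l ≤ d) (n : ℕ) :
    rk d A l n ≤ rk d A j (n / R d A j l) :=
  Nat.add_le_add (Nat.mul_le_mul_left _ (rk_aux hd hA h hl n)) (by omega)

lemma rk_lt {j l : ℕ} (h : j < l) (hl : l ≤ d) (n : ℕ) :
    rk d A l n < rk d A j (n / R d A j l) :=
  Nat.add_lt_add_of_le_of_lt (Nat.mul_le_mul_left _ (rk_aux hd hA h.le hl n)) (by omega)

lemma rk_gt {j l w n : ℕ} (h : j ≤ l) (hl : l ≤ d) (hw : w < n / R d A j l) :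
    rk d A j w < rk d A l n := by
  have h1 : (w + 1) * R d A j l ≤ n := (Nat.le_div_iff_mul_le (R_pos hd hA j l)).1 hw
  have h2 : (w + 1) * R d A j d + 1 ≤ (n + 1) * R d A l d := by
    rw [← R_mul h hl, ← mul_assoc, add_mul n, one_mul]
    exact Nat.add_le_add (Nat.mul_le_mul_right _ h1) (R_pos hd hA l d)
  have h3 := Nat.mul_le_mul_left (d + 1) h2
  unfold rk
  rw [mul_add] at h3
  omega

lemma Y_le {j n j' n' : ℕ} (h : rk d A j n ≤ rk d A j' n') : Y d A j n ≤ Y d A j' n' :=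
  Nat.pow_le_pow_right (by have := P_pos hd hA d; omega) h

lemma Y_lt {j n j' n' : ℕ} (h : rk d A j n < rk d A j' n') :
    4 * P d A d * Y d A j n ≤ Y d A j' n' := by
  rw [Y, ← pow_succ']
  exact Nat.pow_le_pow_right (by have := P_pos hd hA d; omega) h

lemma Y_Yp {l : ℕ} (h1 : 1 ≤ l) (hl : l ≤ d) (n : ℕ) :
    4 * P d A d * Y d A l n ≤ Yp d A l n := by
  obtain ⟨l, rfl⟩ := Nat.exists_eq_add_of_le' h1
  have := rk_lt hd hA (Nat.lt_succ_self l) hl n
  rw [R_one] at this
  exact Y_lt hd hA this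

lemma wid {l : ℕ} (h1 : 1 ≤ l) (hl : l < d) (n : ℕ) :
    4 * M d A l * Y d A l n ≤ Yp d A l n :=
  (Nat.mul_le_mul_right _ (Nat.mul_le_mul_left _ (M_le hd hA hl))).trans (Y_Yp hd hA h1 hl.le n)

lemma four_Y {l : ℕ} (h1 : 1 ≤ l) (hl : l ≤ d) (n : ℕ) : 4 * Y d A l n ≤ Yp d A l n :=
  (Nat.mul_le_mul_right _ (Nat.le_mul_of_pos_right _ (P_pos hd hA d))).trans (Y_Yp hd hA h1 hl n)

lemma Yp_le {j l : ℕ} (h : j < l) (hl : l ≤ d) (n : ℕ) :
    Yp d A l n ≤ Y d A j (n / R d A j l) := by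
  obtain ⟨l, rfl⟩ := Nat.exists_eq_add_of_le' (Nat.one_le_of_lt h)
  rw [anc_succ (by omega)]
  exact Y_le hd hA (rk_le hd hA (by omega) (by omega) _)

lemma Yp_ge {j l w n : ℕ} (h : j < l) (hl : l ≤ d) (hw : w < n / R d A j l) :
    4 * P d A d * Y d A j w ≤ Yp d A l n := by
  obtain ⟨l, rfl⟩ := Nat.exists_eq_add_of_le' (Nat.one_le_of_lt h)
  rw [anc_succ (by omega)] at hw
  exact Y_lt hd hA (rk_gt hd hA (by omega) (by omega) hw)

lemma top (l n : ℕ) : s d A (l + 1) n + 4 * Yp d A (l + 1) n ≤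
    x d A l (n / M d A l) + 4 * M d A l * Y d A l (n / M d A l) := by
  have h := Nat.mul_le_mul_right (Y d A l (n / M d A l))
    (Nat.mul_le_mul_left 4 (Nat.succ_le_of_lt (Nat.mod_lt n (M_pos hd hA l))))
  simp only [s, Yp]
  rw [Nat.succ_eq_add_one, mul_add, add_mul] at h
  omega

lemma loc {j l : ℕ} (h : j < l) (hl : l ≤ d) (n : ℕ) :
    x d A j (n / R d A j l) ≤ s d A l n ∧ s d A l n + 4 * Yp d A l n ≤
      x d A j (n / R d A j l) + 4 * M d A j * Y d A j (n / R d A j l) := by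
  induction l, h using Nat.le_induction generalizing n with
  | base => rw [R_one]; exact ⟨Nat.le_add_right _ _, top hd hA j n⟩
  | succ l h ih =>
    rw [anc_succ (by omega)]
    obtain ⟨i1, i2⟩ := ih (by omega) (n / M d A l)
    have t := top hd hA l n
    have w := wid hd hA (l := l) (by omega) hl (n / M d A l)
    have e := x_eq (d := d) (A := A) l (n / M d A l)
    have b : x d A l (n / M d A l) ≤ s d A (l + 1) n := Nat.le_add_right _ _
    constructor <;> omega

lemma loc1 {j l : ℕ} (h1 : 1 ≤ j) (h : j ≤ l) (hl : l ≤ d) (n : ℕ) :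
    s d A j (n / R d A j l) ≤ s d A l n ∧
      s d A l n < s d A j (n / R d A j l) + 2 * Yp d A j (n / R d A j l) := by
  rcases h.eq_or_lt with rfl | h
  · rw [R_self, Nat.div_one]
    have := Yp_pos hd hA h1 n
    omega
  · obtain ⟨i1, i2⟩ := loc hd hA h hl n
    have w := wid hd hA h1 (by omega) (n / R d A j l)
    have e := x_eq (d := d) (A := A) j (n / R d A j l)
    have := Yp_pos hd hA (l := l) (by omega) n
    omega

lemma ord {l : ℕ} (h1 : 1 ≤ l) (hl : l ≤ d) {n n' : ℕ} (h : n < n') (hn : n' < P d A l) :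
    s d A l n + 4 * Yp d A l n ≤ s d A l n' ∧
      s d A l n + 2 * Yp d A l n + 2 * Yp d A l n' ≤ s d A l n' := by
  induction l generalizing n n' with
  | zero => omega
  | succ l ih =>
    have hM := M_pos hd hA l
    rcases (Nat.div_le_div_right (c := M d A l) h.le).eq_or_lt with e | e
    · have h2 : n % M d A l + 1 ≤ n' % M d A l := by
        have a := Nat.div_add_mod n (M d A l)
        have b := Nat.div_add_mod n' (M d A l)
        rw [e] at a
        omega
      have h3 := Nat.mul_le_mul_right (Y d A l (n' / M d A l)) (Nat.mul_le_mul_left 4 h2)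
      simp only [s, Yp, e]
      rw [mul_add, add_mul] at h3
      omega
    · have hq : n' / M d A l < P d A l := by
        rw [Nat.div_lt_iff_lt_mul hM]; exact hn
      have l1 : 1 ≤ l := by
        rcases Nat.eq_zero_or_pos l with rfl | l1
        · exact absurd (lt_of_lt_of_le e (Nat.le_of_lt_succ hq)) (Nat.not_lt_zero _)
        · exact l1
      obtain ⟨-, i2⟩ := ih l1 (by omega) e hq
      have t := top hd hA l n
      have w := wid hd hA l1 hl (n / M d A l)
      have e1 := x_eq (d := d) (A := A) l (n / M d A l)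
      have e2 := x_eq (d := d) (A := A) l (n' / M d A l)
      have b : x d A l (n' / M d A l) ≤ s d A (l + 1) n' := Nat.le_add_right _ _
      have f := four_Y hd hA l1 (by omega) (n' / M d A l)
      have e3 : Yp d A (l + 1) n' = Y d A l (n' / M d A l) := rfl
      constructor <;> omega

lemma ord_le {l : ℕ} (h1 : 1 ≤ l) (hl : l ≤ d) {n n' : ℕ} (h : n ≤ n') (hn : n' < P d A l) :
    s d A l n ≤ s d A l n' := by
  rcases h.eq_or_lt with rfl | h
  · exact le_rfl
  · have := (ord hd hA h1 hl h hn).1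
    omega

lemma adm {l0 n0 l n : ℕ} (a0 : 1 ≤ l0) (b0 : l0 ≤ d) (c0 : n0 < P d A l0) (a : 1 ≤ l) (b : l ≤ d)
    (c : n < P d A l) (h : s d A l0 n0 < s d A l n) :
    s d A l0 n0 + 2 * Yp d A l n < s d A l n := by
  rcases le_or_gt l l0 with hl | hl
  · obtain ⟨i1, i2⟩ := loc1 hd hA a hl b0 n0
    rcases le_or_gt n (n0 / R d A l l0) with hy | hy
    · have := ord_le hd hA a b hy (anc_lt hd hA hl c0)
      omega
    · have := (ord hd hA a b hy c).2
      omega
  · obtain ⟨-, i2⟩ := loc1 hd hA a0 hl.le b n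
    rcases le_or_gt n0 (n / R d A l0 l) with hy | hy
    · have h1 := ord_le hd hA a0 b0 hy (anc_lt hd hA hl.le c)
      have h2 := (loc hd hA hl b n).1
      have e := x_eq (d := d) (A := A) l0 (n / R d A l0 l)
      have h3 := Yp_le hd hA hl b n
      have h4 := four_Y hd hA a0 b0 (n / R d A l0 l)
      have h5 := Y_pos hd hA l0 (n / R d A l0 l)
      omega
    · have := (ord hd hA a0 b0 hy c0).1
      omega

end

end Vale.Agent.P302
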