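import Vale.Agent.P302.Geo

/-! No almost perfect matching of keys, markers and items exists. -/

namespace Vale.Agent.P302

open Finset

variable (d A : ℕ)

def Ks : Finset (ℕ × ℕ) := (range (d + 1) ×ˢ range (P d A d)).filter fun p => p.2 < P d A p.1

def mv : ℕ → ℕ → ℕ
  | 0, _ => 0
  | j + 1, n => (if n % M d A j < A * P d A j then 6 else 2) * Y d A j (n / M d A j)

def tm : ℕ → ℕ → ℕ
  | 0, _ => 4 * M d A 0 * Y d A 0 0
  | j + 1, n => s d A (j + 1) n

structure Mt (K : ℕ) (β : Type) where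
  G : Finset β
  key : β → ℕ × ℕ
  mr : β → ℕ × ℕ
  it : β → ℕ × ℕ
  hk : ∀ b ∈ G, key b ∈ Ks d A
  hm : ∀ b ∈ G, mr b ∈ Ks d A
  hi : ∀ b ∈ G, it b ∈ Ks d A
  ik : Set.InjOn key G
  im : Set.InjOn mr G
  ii : Set.InjOn it G
  card : (Ks d A).card ≤ G.card + K
  feas : ∀ b ∈ G, s d A (key b).1 (key b).2 + mv d A (mr b).1 (mr b).2 ≤
    tm d A (it b).1 (it b).2 + 2 * Yp d A (key b).1 (key b).2

variable {d A}

lemma mem_Ks (hd : 0 < d) (hA : 0 < A) {p : ℕ × ℕ} :
    p ∈ Ks d A ↔ p.1 ≤ d ∧ p.2 < P d A p.1 := by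
  simp only [Ks, mem_filter, mem_product, mem_range]
  exact ⟨fun h => ⟨by omega, h.2⟩, fun h => ⟨⟨by omega, h.2.trans_le (P_mono hd hA h.1)⟩, h.2⟩⟩

lemma mv_ge (l n : ℕ) : 2 * Yp d A l n ≤ mv d A l n := by
  cases l with
  | zero => exact le_rfl
  | succ l =>
    simp only [mv, Yp]
    split_ifs <;> omega

lemma tm_eq {l : ℕ} (h : 1 ≤ l) (n : ℕ) : tm d A l n = s d A l n := by
  obtain ⟨l, rfl⟩ := Nat.exists_eq_add_of_le' h
  rfl

lemma miss {β : Type} {G : Finset β} {f : β → ℕ × ℕ} {S T : Finset (ℕ × ℕ)} {K : ℕ}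
    (hf : ∀ b ∈ G, f b ∈ S) (hi : Set.InjOn f G) (hc : S.card ≤ G.card + K) (hT : T ⊆ S) :
    T.card ≤ (G.filter fun b => f b ∈ T).card + K := by
  have h1 := card_filter_add_card_filter_not (s := G) fun b => f b ∈ T
  have h2 : (G.filter fun b => ¬ f b ∈ T).card ≤ (S \ T).card :=
    card_le_card_of_injOn f (fun b hb => by
      rw [mem_coe, mem_filter] at hb
      exact mem_coe.2 (mem_sdiff.2 ⟨hf b hb.1, hb.2⟩)) (hi.mono fun b hb => (mem_filter.1 hb).1)
  have h3 := card_sdiff_add_card_eq_card hT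
  omega

namespace Mt

variable {K : ℕ} {β : Type} (m : Mt d A K β)

/-- the bin `b` is delayed at time `τ` -/
def Del (b : β) (τ : ℕ) : Prop :=
  s d A (m.key b).1 (m.key b).2 ≤ τ ∧ τ + 2 * Yp d A (m.key b).1 (m.key b).2 <
    s d A (m.key b).1 (m.key b).2 + mv d A (m.mr b).1 (m.mr b).2

variable (hd : 0 < d) (hA : 0 < A)
include hd hA

lemma cut (τ : ℕ) {S : Finset β} (hS : S ⊆ m.G)
    (h : ∀ b ∈ S, 1 ≤ (m.key b).1 ∧ m.Del b τ) : S.card ≤ K + 1 := by
  classical
  set T := (Ks d A).filter fun p => 1 ≤ p.1 ∧ s d A p.1 p.2 ≤ τ with hT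
  have h1 := miss (T := T) m.hi m.ii m.card (filter_subset _ _)
  set G1 := m.G.filter fun b => m.it b ∈ T with hG1
  have f1 : ∀ b ∈ G1, s d A (m.key b).1 (m.key b).2 + mv d A (m.mr b).1 (m.mr b).2 ≤
      s d A (m.it b).1 (m.it b).2 + 2 * Yp d A (m.key b).1 (m.key b).2 ∧
      s d A (m.it b).1 (m.it b).2 ≤ τ := fun b hb => by
    obtain ⟨hb, ht⟩ := mem_filter.1 hb
    obtain ⟨-, t1, t2⟩ := mem_filter.1 ht
    have := m.feas b hb
    rw [tm_eq t1] at this
    exact ⟨this, t2⟩
  have hdis : Disjoint G1 S := disjoint_left.2 fun b b1 b2 => by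
    have := f1 b b1
    have := (h b b2).2.2
    omega
  have h2 : (G1 ∪ S).card ≤ (insert (0, 0) T).card := by
    refine card_le_card_of_injOn m.key (fun b hb => ?_)
      (m.ik.mono fun b hb => ?_)
    · rw [mem_coe] at hb ⊢
      rcases mem_union.1 hb with hb | hb
      · have hG := (mem_filter.1 hb).1
        have hk := m.hk b hG
        obtain ⟨k1, k2⟩ := (mem_Ks hd hA).1 hk
        rcases Nat.eq_zero_or_pos (m.key b).1 with e | e
        · rw [e] at k2
          exact mem_insert.2 (Or.inl (Prod.ext e (Nat.lt_one_iff.1 k2)))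
        · refine mem_insert_of_mem (mem_filter.2 ⟨hk, e, ?_⟩)
          obtain ⟨hi, t1, -⟩ := mem_filter.1 (mem_filter.1 hb).2
          obtain ⟨i1, i2⟩ := (mem_Ks hd hA).1 hi
          have := f1 b hb
          by_contra hc
          have := adm hd hA t1 i1 i2 e k1 k2 (by omega)
          omega
      · exact mem_insert_of_mem (mem_filter.2 ⟨m.hk b (hS hb), (h b hb).1, (h b hb).2.1⟩)
    · rcases mem_union.1 (mem_coe.1 hb) with hb | hb
      exacts [(mem_filter.1 hb).1, hS hb]
  rw [card_union_of_disjoint hdis] at h2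
  have := card_insert_le (0, 0) T
  omega

omit hd hA in
/-- delayed beyond the end of the structure at depth `j` -/
def LD (j : ℕ) (b : β) : Prop :=
  j < (m.key b).1 ∧ ∀ l n, j < l → l ≤ d →
    n / R d A j l = (m.key b).2 / R d A j (m.key b).1 →
      s d A l n + 2 * Yp d A (m.key b).1 (m.key b).2 <
        s d A (m.key b).1 (m.key b).2 + mv d A (m.mr b).1 (m.mr b).2

lemma long (j : ℕ) {S : Finset β} (hS : S ⊆ m.G) (h : ∀ b ∈ S, m.LD j b) :
    S.card ≤ (K + 1) * P d A j := by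
  have := card_le_mul_card_image_of_maps_to (s := S) (t := range (P d A j))
    (f := fun b => (m.key b).2 / R d A j (m.key b).1) (fun b hb => mem_range.2
      (anc_lt hd hA (h b hb).1.le ((mem_Ks hd hA).1 (m.hk b (hS hb))).2)) (K + 1) fun w _ => ?_
  · rwa [card_range] at this
  rcases (S.filter fun b => (m.key b).2 / R d A j (m.key b).1 = w).eq_empty_or_nonempty with e | e
  · rw [e]; exact Nat.zero_le _
  obtain ⟨c, hc, hmax⟩ := exists_max_image _ (fun b => s d A (m.key b).1 (m.key b).2) e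
  refine m.cut hd hA (s d A (m.key c).1 (m.key c).2) ((filter_subset _ _).trans hS) fun b hb => ?_
  obtain ⟨b1, b2⟩ := mem_filter.1 hb
  obtain ⟨c1, c2⟩ := mem_filter.1 hc
  exact ⟨Nat.one_le_of_lt (h b b1).1, hmax b hb, (h b b1).2 _ _ (h c c1).1
    ((mem_Ks hd hA).1 (m.hk c (hS c1))).1 (c2.trans b2.symm)⟩

lemma shallow (j : ℕ) {S : Finset β} (hS : S ⊆ m.G) (h : ∀ b ∈ S, (m.key b).1 ≤ j) :
    S.card ≤ (d + 1) * P d A j := by
  have := card_le_card_of_injOn (s := S) (t := range (d + 1) ×ˢ range (P d A j)) m.key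
    (fun b hb => by
      obtain ⟨k1, k2⟩ := (mem_Ks hd hA).1 (m.hk b (hS hb))
      exact mem_coe.2 (mem_product.2 ⟨mem_range.2 (by omega),
        mem_range.2 (k2.trans_le (P_mono hd hA (h b hb)))⟩)) (m.ik.mono hS)
  rwa [card_product, card_range, card_range] at this

lemma LD_of {j : ℕ} {b : β} (hb : b ∈ m.G) (hj : j < (m.key b).1)
    (h : 8 * P d A d * Y d A j ((m.key b).2 / R d A j (m.key b).1) ≤
      mv d A (m.mr b).1 (m.mr b).2) : m.LD j b := by
  refine ⟨hj, fun l n h1 h2 e => ?_⟩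
  obtain ⟨k1, -⟩ := (mem_Ks hd hA).1 (m.hk b hb)
  have a1 := (loc hd hA h1 h2 n).2
  have a2 := (loc hd hA hj k1 (m.key b).2).1
  have a3 := Yp_le hd hA hj k1 (m.key b).2
  have a4 := Yp_pos hd hA (Nat.one_le_of_lt h1) n
  rw [e] at a1
  generalize Y d A j ((m.key b).2 / R d A j (m.key b).1) = y at *
  have a5 := Nat.mul_le_mul_right y (M_le hd hA (j := j) (by omega))
  have a6 := Nat.mul_le_mul_right y (P_pos hd hA d)
  simp only [mul_assoc] at *
  omega

lemma step (hK : 3 * K + d + 3 ≤ A) {j q : ℕ} (hj : j < d) (hq : q < P d A j) :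
    ∃ b ∈ m.G, (m.mr b).1 = j + 1 ∧ 1 ≤ (m.key b).1 ∧ ∃ c < P d A (j + 1), c / M d A j = q ∧
      ∀ l n, j + 1 ≤ l → l ≤ d → n / R d A (j + 1) l = c → m.Del b (s d A l n) := by
  classical
  by_contra hc
  have hM := M_pos hd hA j
  have hAM : A * P d A j ≤ M d A j := by
    rw [M, mul_assoc]; exact Nat.le_mul_of_pos_left _ hd
  set Pv := (Ks d A).filter fun p => p.1 = j + 1 ∧ p.2 / M d A j = q ∧ p.2 % M d A j < A * P d A j
    with hPv
  set Big := (Ks d A).filter fun p => j < p.1 ∧ q < p.2 / R d A j p.1 with hBig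
  have c1 : A * P d A j ≤ Pv.card := by
    have := card_le_card_of_injOn (s := range (A * P d A j)) (t := Pv)
      (fun i => (j + 1, M d A j * q + i)) (fun i hi => by
        have hi : i < A * P d A j := mem_range.1 (mem_coe.1 hi)
        have e1 : (M d A j * q + i) / M d A j = q := by
          rw [Nat.mul_add_div hM, Nat.div_eq_of_lt (by omega), add_zero]
        have e2 : (M d A j * q + i) % M d A j = i := by
          rw [Nat.mul_add_mod, Nat.mod_eq_of_lt (by omega)]
        refine mem_coe.2 (mem_filter.2 ⟨(mem_Ks hd hA).2 ⟨hj, ?_⟩, rfl, e1, by rw [e2]; exact hi⟩)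
        rw [P_succ, ← Nat.div_lt_iff_lt_mul hM, e1]; exact hq)
      (fun i _ i' _ e => by simpa using e)
    rwa [card_range] at this
  have c2 := miss (T := Pv) m.hm m.im m.card (filter_subset _ _)
  have c3 := miss (T := Big) m.hm m.im m.card (filter_subset _ _)
  set G1 := m.G.filter fun b => m.mr b ∈ Pv with hG1
  set G2 := m.G.filter fun b => m.mr b ∈ Big with hG2
  have hdis : Disjoint G1 G2 := disjoint_left.2 fun b b1 b2 => by
    obtain ⟨-, e1, e2, -⟩ := mem_filter.1 (mem_filter.1 b1).2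
    obtain ⟨-, -, e3⟩ := mem_filter.1 (mem_filter.1 b2).2
    rw [e1, R_one] at e3
    omega
  have key : ∀ b ∈ G1 ∪ G2, m.key b ∈ Big ∨ (m.key b).1 ≤ j ∨ m.LD j b := by
    intro b hb
    have hG : b ∈ m.G := by
      rcases mem_union.1 hb with hb | hb
      exacts [(mem_filter.1 hb).1, (mem_filter.1 hb).1]
    have hk := m.hk b hG
    obtain ⟨k1, k2⟩ := (mem_Ks hd hA).1 hk
    rcases le_or_gt (m.key b).1 j with hl | hl
    · exact Or.inr (Or.inl hl)
    rcases lt_or_ge q ((m.key b).2 / R d A j (m.key b).1) with hw | hw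
    · exact Or.inl (mem_filter.2 ⟨hk, hl, hw⟩)
    refine Or.inr (Or.inr ?_)
    rcases mem_union.1 hb with hb | hb
    swap
    · obtain ⟨hm, e1, e2⟩ := mem_filter.1 (mem_filter.1 hb).2
      refine m.LD_of hd hA hG hl ?_
      have a1 := Yp_ge hd hA e1 ((mem_Ks hd hA).1 hm).1 (hw.trans_lt e2)
      have a2 := mv_ge (d := d) (A := A) (m.mr b).1 (m.mr b).2
      simp only [mul_assoc] at *
      omega
    obtain ⟨-, e1, e2, e3⟩ := mem_filter.1 (mem_filter.1 hb).2
    have emv : mv d A (m.mr b).1 (m.mr b).2 = 6 * Y d A j q := by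
      rw [e1, mv, if_pos e3, e2]
    rcases hw.eq_or_lt with hw | hw
    swap
    · refine m.LD_of hd hA hG hl ?_
      have a1 := Y_lt hd hA (rk_gt hd hA (l := j) (n := q) le_rfl hj.le
        (by rwa [R_self, Nat.div_one]))
      simp only [mul_assoc] at *
      omega
    by_contra hL
    refine hc ⟨b, hG, e1, by omega, ?_⟩
    have hy : (m.key b).2 / R d A (j + 1) (m.key b).1 / M d A j = q := by
      rw [← R_one, anc_anc (by omega) hl, hw]
    rcases (show j + 1 ≤ (m.key b).1 from hl).eq_or_lt with e | e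
    · have e : (m.key b).1 = j + 1 := e.symm
      rw [e, R_self, Nat.div_one] at hy
      rw [e] at k2
      refine ⟨(m.key b).2, k2, hy, fun l n h1 h2 h3 => ?_⟩
      have := loc1 hd hA (by omega) h1 h2 n
      have e4 : Yp d A (j + 1) (m.key b).2 = Y d A j q := by rw [Yp, hy]
      rw [h3, e4] at this
      rw [Del, emv, e, e4]
      omega
    set y := (m.key b).2 / R d A (j + 1) (m.key b).1 with hyd
    have e4 : Yp d A (j + 1) y = Y d A j q := by rw [Yp, hy]
    have e5 : s d A (j + 1) y = x d A j q + 4 * (y % M d A j) * Y d A j q := by rw [s, hy]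
    have a1 := (loc hd hA e k1 (m.key b).2).1
    have a2 := (loc1 hd hA (by omega) e.le k1 (m.key b).2).2
    have a3 := Yp_le hd hA e k1 (m.key b).2
    have a4 := four_Y hd hA (l := j + 1) (by omega) hj y
    have a5 := x_eq (d := d) (A := A) (j + 1) y
    rw [← hyd] at a1 a2 a3
    rcases lt_or_ge (y % M d A j + 1) (M d A j) with hl' | hl'
    · have d1 := Nat.div_add_mod y (M d A j)
      have f1 : (y + 1) / M d A j = q := by
        rw [← d1, add_assoc, Nat.mul_add_div hM, Nat.div_eq_of_lt hl', add_zero, hy]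
      have f2 : (y + 1) % M d A j = y % M d A j + 1 := by
        conv_lhs => rw [← d1, add_assoc, Nat.mul_add_mod, Nat.mod_eq_of_lt hl']
      refine ⟨y + 1, ?_, f1, fun l n h1 h2 h3 => ?_⟩
      · rw [P_succ, ← Nat.div_lt_iff_lt_mul hM, f1]; exact hq
      have := loc1 hd hA (by omega) h1 h2 n
      have e6 : Yp d A (j + 1) (y + 1) = Y d A j q := by rw [Yp, f1]
      have e7 : s d A (j + 1) (y + 1) = s d A (j + 1) y + 4 * Y d A j q := by
        rw [e5, s, f1, f2]; ring
      rw [h3, e6, e7] at this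
      rw [Del, emv]
      omega
    · refine absurd ⟨hl, fun l n h1 h2 h3 => ?_⟩ hL
      have b1 := (loc hd hA h1 h2 n).2
      have b2 := Yp_pos hd hA (Nat.one_le_of_lt h1) n
      rw [h3, hw] at b1
      have b3 := Nat.mul_le_mul_right (Y d A j q) (Nat.mul_le_mul_left 4 hl')
      rw [mul_add, add_mul] at b3
      rw [emv]
      omega
  have hsub : G1 ∪ G2 ⊆ (m.G.filter (fun b => m.key b ∈ Big) ∪
      m.G.filter (fun b => (m.key b).1 ≤ j)) ∪ m.G.filter (fun b => m.LD j b) := fun b hb => by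
    have hG : b ∈ m.G := by
      rcases mem_union.1 hb with hb | hb
      exacts [(mem_filter.1 hb).1, (mem_filter.1 hb).1]
    simp only [mem_union, mem_filter (s := m.G)]
    have := key b hb
    tauto
  have d0 := (card_le_card hsub).trans ((card_union_le _ _).trans
    (Nat.add_le_add_right (card_union_le _ _) _))
  rw [card_union_of_disjoint hdis] at d0
  have d1 : (m.G.filter fun b => m.key b ∈ Big).card ≤ Big.card :=
    card_le_card_of_injOn m.key (fun b hb => mem_coe.2 (mem_filter.1 (mem_coe.1 hb)).2)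
      (m.ik.mono fun b hb => (mem_filter.1 hb).1)
  have d2 := m.shallow hd hA j (filter_subset (fun b => (m.key b).1 ≤ j) _)
    fun b hb => (mem_filter.1 hb).2
  have d3 := m.long hd hA j (filter_subset (fun b => m.LD j b) _) fun b hb => (mem_filter.1 hb).2
  have d4 := Nat.mul_le_mul_right (P d A j) hK
  have d5 := Nat.mul_le_mul_left K (P_pos hd hA j)
  have d6 := P_pos hd hA j
  simp only [add_mul, mul_assoc, one_mul] at d2 d3 d4
  omega

include m in
theorem low (hK : 3 * K + d + 3 ≤ A) : d ≤ K + 1 := by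
  classical
  have : ∀ j ≤ d, ∃ q < P d A j, ∃ S ⊆ m.G, S.card = j ∧ ∀ b ∈ S, (m.mr b).1 ≤ j ∧
      1 ≤ (m.key b).1 ∧ ∀ l n, j ≤ l → l ≤ d → n / R d A j l = q → m.Del b (s d A l n) := by
    intro j
    induction j with
    | zero => exact fun _ => ⟨0, one_pos, ∅, empty_subset _, rfl, by simp⟩
    | succ j ih =>
      intro hj
      obtain ⟨q, hq, S, hS, cS, h⟩ := ih (by omega)
      obtain ⟨b, hb, e1, e2, c, hc, e3, h'⟩ := m.step hd hA hK hj hq
      have nb : b ∉ S := fun hb => by have := (h b hb).1; omega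
      refine ⟨c, hc, insert b S, insert_subset hb hS, by rw [card_insert_of_notMem nb, cS],
        fun b' hb' => ?_⟩
      rcases mem_insert.1 hb' with rfl | hb'
      · exact ⟨e1.le, e2, h'⟩
      · refine ⟨by have := (h b' hb').1; omega, (h b' hb').2.1, fun l n h1 h2 h3 =>
          (h b' hb').2.2 l n (by omega) h2 ?_⟩
        rw [← anc_anc (Nat.le_succ j) h1, h3, R_one, e3]
  obtain ⟨q, -, S, hS, cS, h⟩ := this d le_rfl
  rw [← cS]
  exact m.cut hd hA (s d A d q) hS fun b hb =>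
    ⟨(h b hb).2.1, (h b hb).2.2 d q le_rfl le_rfl (by rw [R_self, Nat.div_one])⟩

end Mt

end Vale.Agent.P302
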