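import Vale.Agent.P302.Defs
import Vale.Agent.P302.Low

/-! The fractional packing. -/

namespace Vale.Agent.P302

open Finset

lemma LP_le {n : ℕ} {κ T : Type} [DecidableEq κ] (sz : κ → ℚ) {en : Fin n → κ}
    (he : Function.Injective en) (S : Finset T) (w : T → ℝ) (hw : ∀ t, 0 ≤ w t)
    (bn : T → Fin 3 → κ) (hb : ∀ t ∈ S, ∀ r, ∃ i, en i = bn t r)
    (hf : ∀ t ∈ S, ∑ r, sz (bn t r) ≤ 1)
    (hc : ∀ i, 1 ≤ ∑ t ∈ S, ∑ r, if bn t r = en i then w t else 0) :
    LP (fun i => sz (en i)) ≤ ∑ t ∈ S, w t := by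
  classical
  set cf : T → ℚ →₀ ℕ := fun t => ∑ r, Finsupp.single (sz (bn t r)) 1 with hcf
  have hs : ∀ g : (ℚ →₀ ℕ) → ℝ, ((∑ t ∈ S, Finsupp.single (cf t) (w t)).sum fun c v => g c * v) =
      ∑ t ∈ S, g (cf t) * w t := fun g => by
    rw [← Finsupp.sum_finsetSum_index (fun _ => mul_zero _) (fun _ _ _ => mul_add _ _ _)]
    exact sum_congr rfl fun t _ => Finsupp.sum_single_index (mul_zero _)
  refine csInf_le ⟨0, ?_⟩ ⟨∑ t ∈ S, Finsupp.single (cf t) (w t), fun c => ?_, fun c hc => ?_,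
    fun σ => ?_, ?_⟩
  · rintro t ⟨z, hz, -, -, rfl⟩
    exact sum_nonneg fun c _ => hz c
  · rw [Finsupp.finsetSum_apply]
    refine sum_nonneg fun t _ => ?_
    rw [Finsupp.single_apply]
    split_ifs
    exacts [hw t, le_rfl]
  · obtain ⟨t, ht, hc⟩ := Finsupp.mem_support_finsetSum c hc
    obtain rfl : c = cf t := mem_singleton.1 (Finsupp.support_single_subset hc)
    constructor
    · intro σ hσ
      obtain ⟨r, -, hr⟩ := Finsupp.mem_support_finsetSum σ hσ
      obtain ⟨i, hi⟩ := hb t ht r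
      exact ⟨i, (congrArg sz hi).trans (mem_singleton.1 (Finsupp.support_single_subset hr)).symm⟩
    · refine le_trans (le_of_eq ?_) (hf t ht)
      rw [hcf, ← Finsupp.sum_finsetSum_index (fun _ => by simp) (fun _ _ _ => by push_cast; ring)]
      exact sum_congr rfl fun r _ => by rw [Finsupp.sum_single_index (by simp)]; simp
  · rw [hs fun c => (c σ : ℝ)]
    calc ((univ.filter fun i => sz (en i) = σ).card : ℝ)
        = ∑ i ∈ univ.filter fun i => sz (en i) = σ, (1 : ℝ) := by simp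
      _ ≤ ∑ i ∈ univ.filter fun i => sz (en i) = σ, ∑ t ∈ S, ∑ r,
          if bn t r = en i then w t else 0 := sum_le_sum fun i _ => hc i
      _ = ∑ t ∈ S, ∑ r, ∑ i ∈ univ.filter fun i => sz (en i) = σ,
          if bn t r = en i then w t else 0 := by
        rw [sum_comm]; exact sum_congr rfl fun t _ => sum_comm
      _ ≤ _ := by
        refine sum_le_sum fun t ht => ?_
        rw [hcf, Finsupp.finsetSum_apply, Nat.cast_sum, sum_mul]
        refine sum_le_sum fun r _ => ?_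
        obtain ⟨i, hi⟩ := hb t ht r
        simp only [← hi, he.eq_iff, sum_ite_eq, mem_filter, mem_univ, true_and,
          Finsupp.single_apply]
        split_ifs <;> simp
  · simpa using (hs fun _ => 1).symm

variable (d A : ℕ)

def cnt : ℕ → ℕ
  | 0 => d
  | j + 1 => M d A j

def fm : ℕ → ℕ → ℕ → ℕ × ℕ
  | 0, _, _ => (0, 0)
  | j + 1, n, i => (j + 1, M d A j * (n / M d A j) + i)

def fi : ℕ → ℕ → ℕ → ℕ × ℕ
  | 0, _, i => (i + 1, 0)
  | j + 1, n, i => if i < A * P d A j then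
      (if n + 1 < P d A (j + 1) then (j + 1, n + 1) else (0, 0)) else (j + 1, n)

variable {d A} (hd : 0 < d) (hA : 0 < A)
include hd hA

lemma cnt_pos (l : ℕ) : 0 < cnt d A l := by
  cases l with
  | zero => exact hd
  | succ j => exact M_pos hd hA j

lemma blk {j q i : ℕ} (hi : i < M d A j) :
    (M d A j * q + i) / M d A j = q ∧ (M d A j * q + i) % M d A j = i :=
  ⟨by rw [Nat.mul_add_div (M_pos hd hA j), Nat.div_eq_of_lt hi, add_zero],
    by rw [Nat.mul_add_mod, Nat.mod_eq_of_lt hi]⟩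

lemma blk_mem {j n i : ℕ} (h : (j + 1, n) ∈ Ks d A) (hi : i < M d A j) :
    (j + 1, M d A j * (n / M d A j) + i) ∈ Ks d A := by
  obtain ⟨k1, k2⟩ := (mem_Ks hd hA).1 h
  refine (mem_Ks hd hA).2 ⟨k1, ?_⟩
  rw [P_succ, ← Nat.div_lt_iff_lt_mul (M_pos hd hA j)] at k2 ⊢
  rwa [(blk hd hA hi).1]

lemma fm_mem {e : ℕ × ℕ} (h : e ∈ Ks d A) {i : ℕ} (hi : i < cnt d A e.1) :
    fm d A e.1 e.2 i ∈ Ks d A := by
  obtain ⟨l, n⟩ := e
  cases l with
  | zero => exact (mem_Ks hd hA).2 ⟨Nat.zero_le _, one_pos⟩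
  | succ j => exact blk_mem hd hA h hi

lemma fi_mem {e : ℕ × ℕ} (h : e ∈ Ks d A) {i : ℕ} (hi : i < cnt d A e.1) :
    fi d A e.1 e.2 i ∈ Ks d A := by
  obtain ⟨l, n⟩ := e
  cases l with
  | zero => exact (mem_Ks hd hA).2 ⟨hi, P_pos hd hA _⟩
  | succ j =>
    simp only [fi]
    split_ifs with h1 h2
    · exact (mem_Ks hd hA).2 ⟨((mem_Ks hd hA).1 h).1, h2⟩
    · exact (mem_Ks hd hA).2 ⟨Nat.zero_le _, one_pos⟩
    · exact h

lemma s_top {l n : ℕ} (h1 : 1 ≤ l) (h : (l, n) ∈ Ks d A) :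
    s d A l n + 4 * Yp d A l n ≤ tm d A 0 0 ∧ Yp d A l n ≤ Y d A 0 0 := by
  obtain ⟨k1, k2⟩ := (mem_Ks hd hA).1 h
  have e : n / R d A 0 l = 0 := Nat.lt_one_iff.1 (anc_lt hd hA (Nat.zero_le l) k2)
  have a := (loc hd hA (j := 0) h1 k1 n).2
  have b := Yp_le hd hA (j := 0) h1 k1 n
  rw [e] at a b
  exact ⟨by simpa [x, tm] using a, b⟩

lemma f_feas {e : ℕ × ℕ} (h : e ∈ Ks d A) {i : ℕ} (hi : i < cnt d A e.1) :
    s d A e.1 e.2 + mv d A (fm d A e.1 e.2 i).1 (fm d A e.1 e.2 i).2 ≤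
      tm d A (fi d A e.1 e.2 i).1 (fi d A e.1 e.2 i).2 + 2 * Yp d A e.1 e.2 := by
  obtain ⟨l, n⟩ := e
  cases l with
  | zero => exact Nat.zero_le _
  | succ j =>
    obtain ⟨b1, b2⟩ := blk hd hA (q := n / M d A j) hi
    have e : Yp d A (j + 1) n = Y d A j (n / M d A j) := rfl
    simp only [fm, fi, mv, b1, b2, ← e]
    split_ifs with h1 h2
    · have := (ord hd hA (by omega) ((mem_Ks hd hA).1 h).1 (Nat.lt_succ_self n) h2).1
      rw [tm_eq (by omega)]
      simp only [Nat.succ_eq_add_one] at this ⊢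
      omega
    · have := (s_top hd hA (by omega) h).1
      simp only
      omega
    · rw [tm_eq (by omega)]

omit hd hA in
lemma cov_aux (g : ℕ × ℕ → ℕ → ℕ × ℕ) (y : ℕ × ℕ) {T : Finset (ℕ × ℕ)} (hT : T ⊆ Ks d A) :
    ∑ e ∈ T, (((range (cnt d A e.1)).filter fun i => g e i = y).card : ℝ) / cnt d A e.1 ≤
      ∑ e ∈ Ks d A, ∑ i ∈ range (cnt d A e.1), if g e i = y then 1 / (cnt d A e.1 : ℝ) else 0 := by
  refine le_trans (sum_le_sum_of_subset_of_nonneg hT fun _ _ _ => by positivity) (le_of_eq ?_)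
  refine sum_congr rfl fun e _ => ?_
  rw [← sum_filter, sum_const, nsmul_eq_mul, mul_one_div]

lemma cov_k {y : ℕ × ℕ} (h : y ∈ Ks d A) :
    1 ≤ ∑ e ∈ Ks d A, ∑ _i ∈ range (cnt d A e.1), if e = y then 1 / (cnt d A e.1 : ℝ) else 0 := by
  refine le_trans ?_ (cov_aux (fun e _ => e) y (singleton_subset_iff.2 h))
  have : (cnt d A y.1 : ℝ) ≠ 0 := Nat.cast_ne_zero.2 (cnt_pos hd hA _).ne'
  simp [this]

lemma cov_m {y : ℕ × ℕ} (h : y ∈ Ks d A) :
    1 ≤ ∑ e ∈ Ks d A, ∑ i ∈ range (cnt d A e.1),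
      if fm d A e.1 e.2 i = y then 1 / (cnt d A e.1 : ℝ) else 0 := by
  obtain ⟨l, n⟩ := y
  cases l with
  | zero =>
    obtain rfl : n = 0 := Nat.lt_one_iff.1 ((mem_Ks hd hA).1 h).2
    refine le_trans ?_ (cov_aux (fun e i => fm d A e.1 e.2 i) _ (singleton_subset_iff.2 h))
    have : (d : ℝ) ≠ 0 := Nat.cast_ne_zero.2 hd.ne'
    simp [fm, cnt, this]
  | succ j =>
    have hM := M_pos hd hA j
    have hM' : (0 : ℝ) < M d A j := Nat.cast_pos.2 hM
    refine le_trans ?_ (cov_aux (fun e i => fm d A e.1 e.2 i) _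
      (T := (range (M d A j)).image fun i => (j + 1, M d A j * (n / M d A j) + i)) fun e he => ?_)
    · rw [sum_image fun i _ i' _ e => by simpa using e]
      have : ∀ i ∈ range (M d A j), 1 / (M d A j : ℝ) ≤
          (((range (cnt d A (j + 1))).filter fun i' =>
            fm d A (j + 1) (M d A j * (n / M d A j) + i) i' = (j + 1, n)).card : ℝ) /
            cnt d A (j + 1) := fun i hi => by
        refine div_le_div_of_nonneg_right (Nat.one_le_cast.2 (card_pos.2 ⟨n % M d A j, ?_⟩)) hM'.le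
        refine mem_filter.2 ⟨mem_range.2 (Nat.mod_lt _ hM), ?_⟩
        rw [fm, (blk hd hA (mem_range.1 hi)).1, Nat.div_add_mod]
      refine le_trans (le_of_eq ?_) (sum_le_sum this)
      rw [sum_const, card_range, nsmul_eq_mul, mul_one_div_cancel hM'.ne']
    · obtain ⟨i, hi, rfl⟩ := mem_image.1 he
      exact blk_mem hd hA h (mem_range.1 hi)

lemma red_card {j n : ℕ} {y : ℕ × ℕ}
    (hy : (if n + 1 < P d A (j + 1) then (j + 1, n + 1) else (0, 0)) = y) :
    1 / (d : ℝ) ≤ (((range (cnt d A (j + 1))).filter fun i => fi d A (j + 1) n i = y).card : ℝ) /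
      cnt d A (j + 1) := by
  have hAM : A * P d A j ≤ M d A j := by
    rw [M, mul_assoc]; exact Nat.le_mul_of_pos_left _ hd
  have h1 : range (A * P d A j) ⊆ (range (cnt d A (j + 1))).filter
      fun i => fi d A (j + 1) n i = y := fun i hi => by
    have hi := mem_range.1 hi
    exact mem_filter.2 ⟨mem_range.2 (hi.trans_le hAM), by rw [fi, if_pos hi, hy]⟩
  have h2 := card_le_card h1
  rw [card_range] at h2
  have hM' : (0 : ℝ) < M d A j := Nat.cast_pos.2 (M_pos hd hA j)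
  refine le_trans (le_of_eq ?_) (div_le_div_of_nonneg_right (Nat.cast_le.2 h2) hM'.le)
  have : (d : ℝ) ≠ 0 := Nat.cast_ne_zero.2 hd.ne'
  rw [cnt, div_eq_div_iff this hM'.ne', M]
  push_cast
  ring

lemma blue_card (j n : ℕ) :
    1 - 1 / (d : ℝ) ≤ (((range (cnt d A (j + 1))).filter
      fun i => fi d A (j + 1) n i = (j + 1, n)).card : ℝ) / cnt d A (j + 1) := by
  have hAM : A * P d A j ≤ M d A j := by
    rw [M, mul_assoc]; exact Nat.le_mul_of_pos_left _ hd
  have h1 : Ico (A * P d A j) (M d A j) ⊆ (range (cnt d A (j + 1))).filter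
      fun i => fi d A (j + 1) n i = (j + 1, n) := fun i hi => by
    have hi := mem_Ico.1 hi
    exact mem_filter.2 ⟨mem_range.2 hi.2, by rw [fi, if_neg (by omega)]⟩
  have h2 := card_le_card h1
  rw [Nat.card_Ico] at h2
  have hM' : (0 : ℝ) < M d A j := Nat.cast_pos.2 (M_pos hd hA j)
  refine le_trans (le_of_eq ?_) (div_le_div_of_nonneg_right (Nat.cast_le.2 h2) hM'.le)
  have : (d : ℝ) ≠ 0 := Nat.cast_ne_zero.2 hd.ne'
  rw [Nat.cast_sub hAM, cnt, eq_div_iff hM'.ne', M]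
  push_cast
  field_simp

lemma cov_i {y : ℕ × ℕ} (h : y ∈ Ks d A) :
    1 ≤ ∑ e ∈ Ks d A, ∑ i ∈ range (cnt d A e.1),
      if fi d A e.1 e.2 i = y then 1 / (cnt d A e.1 : ℝ) else 0 := by
  obtain ⟨l, n⟩ := y
  have hd' : (0 : ℝ) < d := Nat.cast_pos.2 hd
  cases l with
  | zero =>
    obtain rfl : n = 0 := Nat.lt_one_iff.1 ((mem_Ks hd hA).1 h).2
    refine le_trans ?_ (cov_aux (fun e i => fi d A e.1 e.2 i) _
      (T := (range d).image fun j => (j + 1, P d A (j + 1) - 1)) fun e he => ?_)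
    · rw [sum_image fun i _ i' _ e => by simpa using (Prod.ext_iff.1 e).1]
      refine le_trans (le_of_eq ?_) (sum_le_sum fun j _ => red_card hd hA (if_neg (by omega)))
      rw [sum_const, card_range, nsmul_eq_mul, mul_one_div_cancel hd'.ne']
    · obtain ⟨j, hj, rfl⟩ := mem_image.1 he
      have := P_pos hd hA (j + 1)
      exact (mem_Ks hd hA).2 ⟨mem_range.1 hj, by simp only; omega⟩
  | succ j =>
    obtain ⟨k1, k2⟩ := (mem_Ks hd hA).1 h
    have hb := blue_card hd hA j n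
    cases n with
    | zero =>
      refine le_trans ?_ (cov_aux (fun e i => fi d A e.1 e.2 i) _
        (T := {(0, 0), (j + 1, 0)}) (insert_subset ((mem_Ks hd hA).2 ⟨Nat.zero_le _, one_pos⟩)
          (singleton_subset_iff.2 h)))
      rw [sum_pair (by simp)]
      have : 1 / (d : ℝ) ≤ (((range (cnt d A 0)).filter
          fun i => fi d A 0 0 i = (j + 1, 0)).card : ℝ) / cnt d A 0 :=
        div_le_div_of_nonneg_right (Nat.one_le_cast.2 (card_pos.2
          ⟨j, mem_filter.2 ⟨mem_range.2 k1, rfl⟩⟩)) hd'.le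
      linarith
    | succ n =>
      refine le_trans ?_ (cov_aux (fun e i => fi d A e.1 e.2 i) _
        (T := {(j + 1, n), (j + 1, n + 1)}) (insert_subset
          ((mem_Ks hd hA).2 ⟨k1, (Nat.lt_succ_self n).trans k2⟩) (singleton_subset_iff.2 h)))
      rw [sum_pair (by simp)]
      have := red_card hd hA (j := j) (n := n) (if_pos k2)
      linarith

end Vale.Agent.P302
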