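import Vale.Agent.P302.LPb

/-! The instance and its gap. -/

namespace Vale.Agent.P302

open Finset

variable (d A : ℕ)

def U : ℕ := tm d A 0 0 + 6 * Y d A 0 0
def ro : Fin 3 → ℕ := ![96, 101, 103]
def ty : Fin 3 → ℕ × ℕ → ℕ :=
  ![fun e => s d A e.1 e.2 + (U d A - 2 * Yp d A e.1 e.2), fun e => mv d A e.1 e.2,
    fun e => U d A - tm d A e.1 e.2]
def nz (y : Fin 3 × ℕ × ℕ) : ℕ := ro y.1 * (2 * U d A + 1) + ty d A y.1 y.2
def cap : ℕ := 300 * (2 * U d A + 1) + 2 * U d A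
def sz (y : Fin 3 × ℕ × ℕ) : ℚ := (nz d A y : ℚ) / cap d A

variable {d A}

lemma cap_pos : (0 : ℚ) < cap d A := Nat.cast_pos.2 (by unfold cap; omega)

lemma sum_sz {ι : Type} (S : Finset ι) (g : ι → Fin 3 × ℕ × ℕ) :
    ∑ i ∈ S, sz d A (g i) ≤ 1 ↔ ∑ i ∈ S, nz d A (g i) ≤ cap d A := by
  simp only [sz, ← sum_div]
  rw [div_le_one cap_pos, ← Nat.cast_sum, Nat.cast_le]

variable (hd : 0 < d) (hA : 0 < A)
include hd hA

lemma bds {e : ℕ × ℕ} (h : e ∈ Ks d A) : s d A e.1 e.2 ≤ U d A ∧ 2 * Yp d A e.1 e.2 ≤ U d A ∧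
    mv d A e.1 e.2 ≤ U d A ∧ tm d A e.1 e.2 ≤ U d A := by
  obtain ⟨l, n⟩ := e
  cases l with
  | zero => exact ⟨Nat.zero_le _, Nat.zero_le _, Nat.zero_le _, Nat.le_add_right _ _⟩
  | succ j =>
    obtain ⟨h1, h2⟩ := s_top hd hA (by omega) h
    have h3 : mv d A (j + 1) n ≤ 6 * Yp d A (j + 1) n := by
      simp only [mv, Yp]
      split_ifs <;> omega
    have h4 : tm d A (j + 1) n = s d A (j + 1) n := rfl
    simp only [U]
    omega

lemma three {a b c : ℕ × ℕ} (ha : a ∈ Ks d A) (hc : c ∈ Ks d A) :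
    nz d A (0, a) + nz d A (1, b) + nz d A (2, c) ≤ cap d A ↔
      s d A a.1 a.2 + mv d A b.1 b.2 ≤ tm d A c.1 c.2 + 2 * Yp d A a.1 a.2 := by
  have h1 := bds hd hA ha
  have h2 := bds hd hA hc
  simp only [nz, cap, ro, ty, Matrix.cons_val_zero, Matrix.cons_val_one, Matrix.cons_val_two,
    Matrix.head_cons, Matrix.tail_cons]
  omega

lemma sz_bd (r : Fin 3) {e : ℕ × ℕ} (h : e ∈ Ks d A) :
    1 / 4 < sz d A (r, e) ∧ sz d A (r, e) < 1 / 2 := by
  have h1 := bds hd hA h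
  have h2 : cap d A < 4 * nz d A (r, e) ∧ 2 * nz d A (r, e) < cap d A := by
    fin_cases r <;> simp [nz, cap, ro, ty] <;> omega
  rw [sz, lt_div_iff₀ cap_pos, div_lt_iff₀ cap_pos]
  have a : (cap d A : ℚ) < 4 * nz d A (r, e) := by exact_mod_cast h2.1
  have b : 2 * (nz d A (r, e) : ℚ) < cap d A := by exact_mod_cast h2.2
  constructor <;> linarith

lemma pack {k C : ℕ} (F : Fin 3 × Ks d A → Fin k)
    (hF : ∀ b, ∑ y with F y = b, nz d A (y.1, y.2.1) ≤ cap d A) (hk : k ≤ (Ks d A).card + C) :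
    Nonempty (Mt d A (299 * C) (Fin k)) := by
  classical
  set c : Fin 3 → Fin k → ℕ := fun r b => (univ.filter fun e : Ks d A => F (r, e) = b).card with hc
  have c1 : ∀ r, ∑ b, c r b = (Ks d A).card := fun r => by
    rw [← card_eq_sum_card_fiberwise (f := fun e : Ks d A => F (r, e)) fun _ _ => mem_univ _]
    simp
  have c2 : ∀ b, 96 * c 0 b + 101 * c 1 b + 103 * c 2 b ≤ 300 := fun b => by
    have h1 : ∑ y with F y = b, ro y.1 * (2 * U d A + 1) ≤ cap d A :=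
      (sum_le_sum fun y _ => Nat.le_add_right _ _).trans (hF b)
    have h2 : ∑ y with F y = b, ro y.1 = 96 * c 0 b + 101 * c 1 b + 103 * c 2 b := by
      rw [sum_filter, Fintype.sum_prod_type, Fin.sum_univ_three]
      simp only [← sum_filter, sum_const, smul_eq_mul, hc, ro, Matrix.cons_val_zero,
        Matrix.cons_val_one, Matrix.cons_val_two, Matrix.head_cons, Matrix.tail_cons]
      ring
    rw [← sum_mul, h2, cap] at h1
    by_contra hh
    have := Nat.mul_le_mul_right (2 * U d A + 1) (Nat.succ_le_of_lt (not_le.1 hh))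
    omega
  set G := univ.filter fun b : Fin k => 0 < c 0 b ∧ 0 < c 1 b ∧ 0 < c 2 b with hG
  have c3 : 300 * (Ks d A).card ≤ 299 * k + G.card := by
    have h1 : ∀ b, 96 * c 0 b + 101 * c 1 b + 103 * c 2 b ≤
        299 + if 0 < c 0 b ∧ 0 < c 1 b ∧ 0 < c 2 b then 1 else 0 := fun b => by
      have := c2 b
      split_ifs <;> omega
    have h2 := sum_le_sum fun b (_ : b ∈ univ) => h1 b
    simp only [sum_add_distrib, ← mul_sum, c1, sum_const, card_univ, Fintype.card_fin,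
      smul_eq_mul, ← card_filter] at h2
    rw [← hG] at h2
    omega
  have ex : ∀ r, ∀ b ∈ G, ∃ e : Ks d A, F (r, e) = b := fun r b hb => by
    have h := (mem_filter.1 hb).2
    have : 0 < c r b := by fin_cases r; exacts [h.1, h.2.1, h.2.2]
    obtain ⟨e, he⟩ := card_pos.1 this
    exact ⟨e, (mem_filter.1 he).2⟩
  have : Nonempty (Ks d A) := ⟨⟨(0, 0), (mem_Ks hd hA).2 ⟨Nat.zero_le _, one_pos⟩⟩⟩
  choose! g hg using ex
  have inj : ∀ r, Set.InjOn (fun b => (g r b : ℕ × ℕ)) G := fun r b hb b' hb' e => by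
    rw [← hg r b hb, ← hg r b' hb', Subtype.ext e]
  refine ⟨⟨G, fun b => g 0 b, fun b => g 1 b, fun b => g 2 b, fun b _ => (g 0 b).2,
    fun b _ => (g 1 b).2, fun b _ => (g 2 b).2, inj 0, inj 1, inj 2, by omega, fun b hb => ?_⟩⟩
  rw [← three hd hA (g 0 b).2 (g 2 b).2]
  refine le_trans ?_ (hF b)
  have hs : univ.image (fun r => (r, g r b)) ⊆ univ.filter fun y => F y = b := fun y hy => by
    obtain ⟨r, -, rfl⟩ := mem_image.1 hy
    exact mem_filter.2 ⟨mem_univ _, hg r b hb⟩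
  refine le_trans (le_of_eq ?_) (sum_le_sum_of_subset hs)
  rw [sum_image fun r _ r' _ e => (Prod.ext_iff.1 e).1, Fin.sum_univ_three]

lemma lp_bd {n : ℕ} (e : Fin n ≃ Fin 3 × Ks d A) :
    LP (fun i => sz d A ((e i).1, (e i).2.1)) ≤ (Ks d A).card := by
  have he : Function.Injective fun i => (((e i).1, (e i).2.1) : Fin 3 × ℕ × ℕ) := fun i j h =>
    e.injective (Prod.ext (Prod.ext_iff.1 h).1 (Subtype.ext (Prod.ext_iff.1 h).2))
  have := LP_le (sz d A) he ((Ks d A).sigma fun p => range (cnt d A p.1))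
    (fun t => 1 / (cnt d A t.1.1 : ℝ)) (fun _ => by positivity)
    (fun t r => (r, ![t.1, fm d A t.1.1 t.1.2 t.2, fi d A t.1.1 t.1.2 t.2] r)) ?_ ?_ ?_
  · refine this.trans (le_of_eq ?_)
    rw [sum_sigma, card_eq_sum_ones, Nat.cast_sum]
    refine sum_congr rfl fun p _ => ?_
    have : (cnt d A p.1 : ℝ) ≠ 0 := Nat.cast_ne_zero.2 (cnt_pos hd hA _).ne'
    simp [this]
  · intro t ht r
    obtain ⟨t1, t2⟩ := mem_sigma.1 ht
    have : ![t.1, fm d A t.1.1 t.1.2 t.2, fi d A t.1.1 t.1.2 t.2] r ∈ Ks d A := by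
      fin_cases r
      exacts [t1, fm_mem hd hA t1 (mem_range.1 t2), fi_mem hd hA t1 (mem_range.1 t2)]
    exact ⟨e.symm (r, ⟨_, this⟩), by simp⟩
  · intro t ht
    obtain ⟨t1, t2⟩ := mem_sigma.1 ht
    rw [sum_sz, Fin.sum_univ_three]
    exact (three hd hA t1 (fi_mem hd hA t1 (mem_range.1 t2))).2 (f_feas hd hA t1 (mem_range.1 t2))
  · intro i
    obtain ⟨r, y, hy⟩ := e i
    simp only [Prod.mk.injEq, ite_and, sum_ite_eq', mem_univ, if_true]
    rw [sum_sigma]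
    fin_cases r
    exacts [cov_k hd hA hy, cov_m hd hA hy, cov_i hd hA hy]

omit hd hA in
theorem gap (C : ℕ) : ∃ (n : ℕ) (a : Fin n → ℚ), (∀ i, 1 / 4 < a i ∧ a i < 1 / 2) ∧
    LP a + C ≤ OPT a := by
  classical
  set d := 299 * C + 2 with hdd
  set A := 3 * (299 * C) + d + 3 with hAd
  have hd : 0 < d := by omega
  have hA : 0 < A := by omega
  let e := (Fintype.equivFin (Fin 3 × Ks d A)).symm
  have hb : ∀ i, 1 / 4 < sz d A ((e i).1, (e i).2.1) ∧ sz d A ((e i).1, (e i).2.1) < 1 / 2 :=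
    fun i => sz_bd hd hA _ (e i).2.2
  refine ⟨_, fun i => sz d A ((e i).1, (e i).2.1), hb, ?_⟩
  have h1 := lp_bd hd hA e
  have h2 : (Ks d A).card + C ≤ OPT fun i => sz d A ((e i).1, (e i).2.1) := by
    refine le_csInf ⟨_, id, fun b => ?_⟩ ?_
    · rw [show (univ.filter fun i => id i = b) = {b} from filter_eq' univ b ▸ by simp, sum_singleton]
      linarith [(hb b).2]
    · rintro k ⟨f, hf⟩
      by_contra hk
      obtain ⟨m⟩ := pack hd hA (C := C) (fun y => f (e.symm y)) (fun b => by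
        rw [← sum_sz]
        refine le_trans (le_of_eq ?_) (hf b)
        exact (sum_equiv e (by simp) (by simp)).symm) (by omega)
      have := m.low hd hA le_rfl
      omega
  have h3 : (((Ks d A).card + C : ℕ) : ℝ) ≤ OPT fun i => sz d A ((e i).1, (e i).2.1) :=
    Nat.cast_le.2 h2
  push_cast at h3
  linarith

end Vale.Agent.P302
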